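import Vale.Agent.P329.H766.Q2
import Vale.Agent.P329.H131.Q1

/-!
# P329 / one coset, prime index: `P_g(a,b)` is known for every prime clock, no hypothesis
-/

set_option linter.all false

namespace Vale.Agent.P329.H766.Q2

open Vale.Agent.P329 Vale.Agent.P329.H559.C2

variable {α : Type} {n : ℕ}

open Classical in
theorem nc_short [NeZero n] (a : α) (r : ZMod n) (X : List α) (hX : X.length ≤ n) :
    nc n a r X = if r.val < X.length ∧ X[X.length - 1 - r.val]? = some a then 1 else 0 := by
  induction X with
  | nil =>
    rw [nc, if_neg]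
    rintro ⟨h, -⟩
    exact Nat.not_lt_zero _ h
  | cons x X ih =>
    have hlen : (x :: X).length = X.length + 1 := rfl
    have hX' : X.length < n := by rw [hlen] at hX; omega
    rw [nc, ih hX'.le]
    have hval : (((X.length : ℕ) : ZMod n)).val = X.length := ZMod.val_cast_of_lt hX'
    have heq : (((X.length : ℕ) : ZMod n) = r) ↔ X.length = r.val := by
      constructor
      · intro h; rw [← h, hval]
      · intro h; rw [h, ZMod.natCast_zmod_val]
    rcases lt_trichotomy r.val X.length with h | h | h
    · have h1 : ¬ (x = a ∧ ((X.length : ℕ) : ZMod n) = r) := fun h' => by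
        have := heq.mp h'.2
        omega
      have h2 : (x :: X)[(x :: X).length - 1 - r.val]? = X[X.length - 1 - r.val]? := by
        have h3 : (x :: X).length - 1 - r.val = (X.length - 1 - r.val) + 1 := by
          rw [hlen]; omega
        rw [h3, List.getElem?_cons_succ]
      rw [if_neg h1, add_zero, h2]
      have h4 : (r.val < X.length ∧ X[X.length - 1 - r.val]? = some a) ↔
          (r.val < (x :: X).length ∧ X[X.length - 1 - r.val]? = some a) := by
        rw [hlen]
        constructor
        · rintro ⟨h5, h6⟩; exact ⟨by omega, h6⟩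
        · rintro ⟨h5, h6⟩; exact ⟨h, h6⟩
      exact if_congr h4 rfl rfl
    · have h1 : ¬ (r.val < X.length ∧ X[X.length - 1 - r.val]? = some a) := fun h' => by
        have := h'.1
        omega
      have h2 : (x :: X)[(x :: X).length - 1 - r.val]? = some x := by
        have h3 : (x :: X).length - 1 - r.val = 0 := by rw [hlen]; omega
        rw [h3]; rfl
      rw [if_neg h1, zero_add, h2]
      have h4 : (x = a ∧ ((X.length : ℕ) : ZMod n) = r) ↔
          (r.val < (x :: X).length ∧ some x = some a) := by
        rw [hlen, Option.some.injEq, heq]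
        constructor
        · rintro ⟨h5, h6⟩; exact ⟨by omega, h5⟩
        · rintro ⟨h5, h6⟩; exact ⟨h6, h.symm⟩
      exact if_congr h4 rfl rfl
    · have h1 : ¬ (r.val < X.length ∧ X[X.length - 1 - r.val]? = some a) := fun h' => by
        have := h'.1
        omega
      have h2 : ¬ (x = a ∧ ((X.length : ℕ) : ZMod n) = r) := fun h' => by
        have := heq.mp h'.2
        omega
      have h3 : ¬ (r.val < (x :: X).length ∧
          (x :: X)[(x :: X).length - 1 - r.val]? = some a) := fun h' => by
        have := h'.1
        rw [hlen] at this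
        omega
      rw [if_neg h1, if_neg h2, if_neg h3, add_zero]

open Classical in
theorem nc_blk [NeZero n] (a : α) (r : ZMod n) (B : Blk α n) :
    nc n a r B.1 = if B.1[n - 1 - r.val]? = some a then 1 else 0 := by
  rw [nc_short a r B.1 B.2.le]
  have h : (r.val < B.1.length ∧ B.1[B.1.length - 1 - r.val]? = some a) ↔
      B.1[n - 1 - r.val]? = some a := by
    rw [B.2]
    exact ⟨fun h => h.2, fun h => ⟨ZMod.val_lt r, h⟩⟩
  exact if_congr h rfl rfl

theorem fl_of_cst [NeZero n] {B : Blk α n} (h : H131.Cst B) : Fl B := by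
  classical
  obtain ⟨x, hx⟩ := h
  intro a r r'
  have h1 : ∀ r : ZMod n, B.1[n - 1 - r.val]? = some x := fun r => hx _ (by
    have := ZMod.val_lt r; omega)
  rw [nc_blk, nc_blk, h1, h1]

theorem ex_of_exc [NeZero n] {B C : Blk α n} (h : H131.Exc B C) : Ex B C := by
  classical
  obtain ⟨x, y, hxy⟩ := h
  intro a
  have h1 : ∀ r : ZMod n, nc n a r B.1 + nc n a r C.1 =
      (if some x = some a then 1 else 0) + (if some y = some a then 1 else 0) := by
    intro r
    obtain ⟨h2, h3⟩ := hxy (n - 1 - r.val) (by have := ZMod.val_lt r; omega)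
    rw [nc_blk, nc_blk, h2, h3]
    by_cases h4 : (n - 1 - r.val) % 2 = 0
    · rw [if_pos h4, if_pos h4]
    · rw [if_neg h4, if_neg h4, add_comm]
  intro r r'
  rw [h1, h1]

/-- **[Q1] in the form of [Q2]** -/
theorem hp [Finite α] {N : ℕ} (hN : N.Prime) : HP α N := by
  haveI : NeZero N := ⟨hN.ne_zero⟩
  intro K g b hne hg hb hE
  exact H131.pcq' hN K g b hne (fun h => hg (fl_of_cst h)) (fun h => hb (fl_of_cst h))
    fun h => hE (ex_of_exc h)

/-- **pair counts by the difference of the positions modulo a prime are known** -/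
theorem pg [Finite α] {N : ℕ} (hN : N.Prime) (g : ZMod N) (a b : α) :
    KnZ fun w : List α => PG N g a b w.reverse := by
  haveI : NeZero N := ⟨hN.ne_zero⟩
  exact pg_known (hp hN) g a b

end Vale.Agent.P329.H766.Q2

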