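import Vale.Agent.P329.H559.C2.Fin
import Vale.Agent.P329.H265.AllN

/-!
# P329 / one coset, prime index: pair counts of letters by the difference of the positions modulo q

Row [Q2] of helper131's blueprint: from the pair counts of blocks of `q` letters (except loops and
exceptional pairs) to the numbers `P_g(a,b)` of pairs of an older letter `a` and a newer letter `b`
whose positions differ by `g` modulo `q`.
-/

set_option linter.all false

namespace Vale.Agent.P329.H766.Q2

open Vale.Agent.P329 Vale.Agent.P329.H559.C2 Vale.Agent.P329.H67 Vale.Agent.P329.H265.AllN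

section defs

variable {α : Type}

open Classical in
/-- number of letters `a` at the positions `r` modulo `n` (most recent letter first, the oldest
letter has position `0`) -/
noncomputable def nc (n : ℕ) (a : α) (r : ZMod n) : List α → ℤ
  | [] => 0
  | x :: X => nc n a r X + if x = a ∧ ((X.length : ℕ) : ZMod n) = r then 1 else 0

open Classical in
/-- number of pairs of a letter `a` and a newer letter `b`, with difference `g` of the positions -/
noncomputable def PG (n : ℕ) (g : ZMod n) (a b : α) : List α → ℤ
  | [] => 0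
  | x :: X => PG n g a b X + if x = b then nc n a (((X.length : ℕ) : ZMod n) - g) X else 0

/-- loops -/
def Fl {n : ℕ} (g : Blk α n) : Prop := ∀ (a : α) (r r' : ZMod n), nc n a r g.1 = nc n a r' g.1

/-- exceptional pairs -/
def Ex {n : ℕ} (g b : Blk α n) : Prop :=
  ∀ (a : α) (r r' : ZMod n), nc n a r g.1 + nc n a r b.1 = nc n a r' g.1 + nc n a r' b.1

end defs

section word

variable {α : Type} {n : ℕ}

theorem nc_append (a : α) (r : ZMod n) (U Y : List α) (hY : ((Y.length : ℕ) : ZMod n) = 0) :
    nc n a r (U ++ Y) = nc n a r U + nc n a r Y := by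
  classical
  induction U with
  | nil => rw [List.nil_append, nc, zero_add]
  | cons x U ih =>
    rw [List.cons_append, nc, nc, ih, List.length_append, Nat.cast_add, hY, add_zero]
    ring

theorem PG_append [NeZero n] (g : ZMod n) (a b : α) (U Y : List α)
    (hY : ((Y.length : ℕ) : ZMod n) = 0) :
    PG n g a b (U ++ Y) = PG n g a b U + (∑ s : ZMod n, nc n b s U * nc n a (s - g) Y) +
      PG n g a b Y := by
  classical
  induction U with
  | nil => simp [nc, PG]
  | cons x U ih =>
    rw [List.cons_append, PG, PG, ih, nc_append _ _ _ _ hY, List.length_append, Nat.cast_add, hY,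
      add_zero]
    have h1 : ∀ s, nc n b s (x :: U) =
        nc n b s U + if x = b ∧ ((U.length : ℕ) : ZMod n) = s then 1 else 0 := fun s => rfl
    have h2 : ∑ s : ZMod n, (if x = b ∧ ((U.length : ℕ) : ZMod n) = s then (1 : ℤ) else 0) *
        nc n a (s - g) Y = if x = b then nc n a (((U.length : ℕ) : ZMod n) - g) Y else 0 := by
      by_cases h : x = b
      · simp [h]
      · simp [h]
    simp only [h1, add_mul, Finset.sum_add_distrib]
    rw [h2]
    by_cases h : x = b
    · rw [if_pos h, if_pos h, if_pos h]; ring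
    · rw [if_neg h, if_neg h, if_neg h]; ring

/-- the letters of a list of blocks -/
def fl (C : List (Blk α n)) : List α := (C.reverse.map Subtype.val).flatten

theorem fl_nil : fl ([] : List (Blk α n)) = [] := rfl

theorem fl_snoc (C : List (Blk α n)) (B : Blk α n) : fl (C ++ [B]) = B.1 ++ fl C := by
  simp [fl]

theorem fl_cons (C : List (Blk α n)) (B : Blk α n) : fl (B :: C) = fl C ++ B.1 := by
  simp [fl]

theorem fl_cast (C : List (Blk α n)) : (((fl C).length : ℕ) : ZMod n) = 0 := by
  induction C with
  | nil => simp [fl]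
  | cons B C ih => rw [fl_cons, List.length_append, Nat.cast_add, ih, B.2, ZMod.natCast_self, add_zero]

theorem dec (w : List α) : ∀ K : Par α n, w.reverse ++ K.1 = (rm K w).1 ++ fl (ps K w) := by
  induction w with
  | nil => intro K; rw [rm, ps, fl_nil, List.reverse_nil, List.nil_append, List.append_nil]
  | cons b w ih =>
    intro K
    rw [List.reverse_cons, List.append_assoc, List.singleton_append, rm]
    by_cases e : K.1.length + 1 = n
    · have h1 := ih (nxt K b)
      rw [nxt_full b e, List.append_nil] at h1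
      rw [ps_full b w e, fl_cons, ← List.append_assoc, ← h1]
    · have h1 := ih (nxt K b)
      rw [nxt_part b e] at h1
      rw [ps_part b w e, h1]

open Classical in
theorem ct_snoc {A : Type} (a x : A) (w : List A) :
    ct a (w ++ [x]) = ct a w + if x = a then 1 else 0 := by
  induction w with
  | nil => simp only [List.nil_append, ct]; ring
  | cons y w ih => rw [List.cons_append, ct, ct, ih]; ring

open Classical in
theorem pcA_snoc {A : Type} (a b x : A) (w : List A) : ∀ k : ℤ,
    pcA a b k (w ++ [x]) = pcA a b k w + if x = b then k + ct a w else 0 := by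
  induction w with
  | nil =>
    intro k
    rw [List.nil_append, pcA, pcA, pcA, ct]
    ring_nf
  | cons y w ih =>
    intro k
    rw [List.cons_append, pcA, pcA, ih, ct]
    by_cases h : x = b
    · rw [if_pos h, if_pos h]; ring
    · rw [if_neg h, if_neg h]; ring

open Classical in
theorem pc_snoc {A : Type} (a b x : A) (w : List A) :
    pc a b (w ++ [x]) = pc a b w + if x = b then ct a w else 0 := by
  rw [pc, pcA_snoc, zero_add]; rfl

theorem pc_self {A : Type} (a : A) (w : List A) : 2 * pc a a w = ct a w * ct a w - ct a w := by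
  classical
  induction w using List.reverseRecOn with
  | nil => rw [pc, pcA, ct]; ring
  | append_singleton w x ih =>
    rw [pc_snoc, ct_snoc]
    by_cases h : x = a
    · rw [if_pos h, if_pos h]; linear_combination ih
    · rw [if_neg h, if_neg h]; linear_combination ih

theorem pc_pc {A : Type} {a b : A} (hab : a ≠ b) (w : List A) :
    pc a b w + pc b a w = ct a w * ct b w := by
  classical
  induction w using List.reverseRecOn with
  | nil => rw [pc, pc, pcA, pcA, ct, ct]; ring
  | append_singleton w x ih =>
    rw [pc_snoc, pc_snoc, ct_snoc, ct_snoc]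
    by_cases h : x = a
    · have h' : ¬ x = b := fun h' => hab (h.symm.trans h')
      rw [if_pos h, if_pos h, if_neg h', if_neg h']; linear_combination ih
    · by_cases h' : x = b
      · rw [if_neg h, if_neg h, if_pos h', if_pos h']; linear_combination ih
      · rw [if_neg h, if_neg h, if_neg h', if_neg h']; linear_combination ih

theorem nc_fl [Fintype (Blk α n)] (a : α) (r : ZMod n) (C : List (Blk α n)) :
    nc n a r (fl C) = ∑ B : Blk α n, ct B C * nc n a r B.1 := by
  classical
  induction C using List.reverseRecOn with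
  | nil => rw [fl_nil, nc]; exact (Finset.sum_eq_zero fun B _ => by rw [ct, zero_mul]).symm
  | append_singleton C x ih =>
    rw [fl_snoc, nc_append _ _ _ _ (fl_cast C), ih]
    have h1 : ∀ B : Blk α n, ct B (C ++ [x]) * nc n a r B.1 =
        ct B C * nc n a r B.1 + if x = B then nc n a r B.1 else 0 := by
      intro B
      rw [ct_snoc]
      by_cases h : x = B
      · rw [if_pos h, if_pos h]; ring
      · rw [if_neg h, if_neg h]; ring
    rw [Finset.sum_congr rfl fun B _ => h1 B, Finset.sum_add_distrib, Finset.sum_ite_eq,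
      if_pos (Finset.mem_univ _)]
    ring

/-- pairs of letters in two blocks -/
noncomputable def hh [NeZero n] (g : ZMod n) (a b : α) (B' B : Blk α n) : ℤ :=
  ∑ s : ZMod n, nc n b s B.1 * nc n a (s - g) B'.1

theorem cr_fl [NeZero n] [Fintype (Blk α n)] (g : ZMod n) (a b : α) (U : List α)
    (C : List (Blk α n)) :
    ∑ s : ZMod n, nc n b s U * nc n a (s - g) (fl C) =
      ∑ B : Blk α n, ct B C * ∑ s : ZMod n, nc n b s U * nc n a (s - g) B.1 := by
  simp only [nc_fl, Finset.mul_sum]
  rw [Finset.sum_comm]
  refine Finset.sum_congr rfl fun B _ => Finset.sum_congr rfl fun s _ => ?_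
  ring

theorem PG_fl [NeZero n] [Fintype (Blk α n)] (g : ZMod n) (a b : α) (C : List (Blk α n)) :
    PG n g a b (fl C) = (∑ B : Blk α n, ct B C * PG n g a b B.1) +
      ∑ B' : Blk α n, ∑ B : Blk α n, pc B' B C * hh g a b B' B := by
  classical
  induction C using List.reverseRecOn with
  | nil =>
    rw [fl_nil, PG]
    have h1 : ∑ B : Blk α n, ct B ([] : List (Blk α n)) * PG n g a b B.1 = 0 :=
      Finset.sum_eq_zero fun B _ => by rw [ct, zero_mul]
    have h2 : ∑ B' : Blk α n, ∑ B : Blk α n, pc B' B ([] : List (Blk α n)) * hh g a b B' B = 0 :=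
      Finset.sum_eq_zero fun B' _ => Finset.sum_eq_zero fun B _ => by rw [pc, pcA, zero_mul]
    rw [h1, h2, add_zero]
  | append_singleton C x ih =>
    rw [fl_snoc, PG_append _ _ _ _ _ (fl_cast C), ih, cr_fl]
    have h1 : ∀ B : Blk α n, ct B (C ++ [x]) * PG n g a b B.1 =
        ct B C * PG n g a b B.1 + if x = B then PG n g a b B.1 else 0 := by
      intro B
      rw [ct_snoc]
      by_cases h : x = B
      · rw [if_pos h, if_pos h]; ring
      · rw [if_neg h, if_neg h]; ring
    have h2 : ∀ B' B : Blk α n, pc B' B (C ++ [x]) * hh g a b B' B =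
        pc B' B C * hh g a b B' B + if x = B then ct B' C * hh g a b B' B else 0 := by
      intro B' B
      rw [pc_snoc]
      by_cases h : x = B
      · rw [if_pos h, if_pos h]; ring
      · rw [if_neg h, if_neg h]; ring
    have h3 : ∀ B' : Blk α n, ∑ B : Blk α n, pc B' B (C ++ [x]) * hh g a b B' B =
        (∑ B : Blk α n, pc B' B C * hh g a b B' B) + ct B' C * hh g a b B' x := by
      intro B'
      rw [Finset.sum_congr rfl fun B _ => h2 B' B, Finset.sum_add_distrib, Finset.sum_ite_eq,
        if_pos (Finset.mem_univ _)]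
    rw [Finset.sum_congr rfl fun B _ => h1 B, Finset.sum_add_distrib, Finset.sum_ite_eq,
      if_pos (Finset.mem_univ _), Finset.sum_congr rfl fun B' _ => h3 B', Finset.sum_add_distrib]
    have h4 : ∀ B' : Blk α n, ∑ s : ZMod n, nc n b s x.1 * nc n a (s - g) B'.1 =
        hh g a b B' x := fun B' => rfl
    simp only [h4]
    ring

/-- all letters -/
theorem sum_nc [NeZero n] (a : α) (X : List α) : ∑ r : ZMod n, nc n a r X = ct a X.reverse := by
  classical
  induction X with
  | nil => rw [List.reverse_nil, ct]; exact Finset.sum_eq_zero fun r _ => rfl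
  | cons x X ih =>
    rw [List.reverse_cons, ct_snoc, ← ih]
    have h1 : ∀ r : ZMod n, nc n a r (x :: X) =
        nc n a r X + if x = a ∧ ((X.length : ℕ) : ZMod n) = r then 1 else 0 := fun r => rfl
    rw [Finset.sum_congr rfl fun r _ => h1 r, Finset.sum_add_distrib]
    congr 1
    by_cases h : x = a
    · simp [h]
    · simp [h]

theorem sum_PG [NeZero n] (a b : α) (X : List α) :
    ∑ g : ZMod n, PG n g a b X = pc a b X.reverse := by
  classical
  induction X with
  | nil => rw [List.reverse_nil, pc, pcA]; exact Finset.sum_eq_zero fun r _ => rfl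
  | cons x X ih =>
    rw [List.reverse_cons, pc_snoc, ← ih]
    have h1 : ∀ g : ZMod n, PG n g a b (x :: X) =
        PG n g a b X + if x = b then nc n a (((X.length : ℕ) : ZMod n) - g) X else 0 :=
      fun g => rfl
    rw [Finset.sum_congr rfl fun r _ => h1 r, Finset.sum_add_distrib]
    congr 1
    by_cases h : x = b
    · simp only [if_pos h]
      rw [← sum_nc (n := n) a X]
      exact Fintype.sum_equiv (Equiv.subLeft ((X.length : ℕ) : ZMod n)) _ _ fun g => rfl
    · simp only [if_neg h]
      exact Finset.sum_const_zero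

end word

section bil

variable {n : ℕ} [NeZero n]

/-- the bilinear form -/
def hb (φ u v : ZMod n → ℤ) : ℤ := ∑ g : ZMod n, φ g * ∑ s : ZMod n, v s * u (s - g)

theorem hb_left (φ u v : ZMod n → ℤ) (hφ : ∑ g, φ g = 0) (hu : ∀ r r', u r = u r') :
    hb φ u v = 0 := by
  unfold hb
  have h1 : ∀ g : ZMod n, φ g * ∑ s : ZMod n, v s * u (s - g) = φ g * ∑ s : ZMod n, v s * u 0 :=
    fun g => by congr 1; exact Finset.sum_congr rfl fun s _ => by rw [hu (s - g) 0]
  rw [Finset.sum_congr rfl fun g _ => h1 g, ← Finset.sum_mul, hφ, zero_mul]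

theorem hb_right (φ u v : ZMod n → ℤ) (hφ : ∑ g, φ g = 0) (hv : ∀ r r', v r = v r') :
    hb φ u v = 0 := by
  unfold hb
  have h1 : ∀ g : ZMod n, φ g * ∑ s : ZMod n, v s * u (s - g) = φ g * ∑ s : ZMod n, v 0 * u s := by
    intro g
    congr 1
    rw [← Finset.mul_sum, ← Equiv.sum_comp (Equiv.subRight g) u, Finset.mul_sum]
    exact Finset.sum_congr rfl fun s _ => by rw [hv s 0]; rfl
  rw [Finset.sum_congr rfl fun g _ => h1 g, ← Finset.sum_mul, hφ, zero_mul]

theorem hb_add_left (φ u u' v : ZMod n → ℤ) :
    hb φ (fun r => u r + u' r) v = hb φ u v + hb φ u' v := by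
  unfold hb
  rw [← Finset.sum_add_distrib]
  refine Finset.sum_congr rfl fun g _ => ?_
  rw [← mul_add, ← Finset.sum_add_distrib]
  congr 1
  exact Finset.sum_congr rfl fun s _ => by ring

theorem hb_add_right (φ u v v' : ZMod n → ℤ) :
    hb φ u (fun r => v r + v' r) = hb φ u v + hb φ u v' := by
  unfold hb
  rw [← Finset.sum_add_distrib]
  refine Finset.sum_congr rfl fun g _ => ?_
  rw [← mul_add, ← Finset.sum_add_distrib]
  congr 1
  exact Finset.sum_congr rfl fun s _ => by ring

variable {α : Type}

theorem hh_hb (φ : ZMod n → ℤ) (a b : α) (B' B : Blk α n) :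
    ∑ g, φ g * hh g a b B' B = hb φ (fun r => nc n a r B'.1) (fun r => nc n b r B.1) := rfl

theorem hb_ex (φ : ZMod n → ℤ) (hφ : ∑ g, φ g = 0) (a b : α) (B' B : Blk α n) (h : Ex B' B) :
    hb φ (fun r => nc n a r B'.1) (fun r => nc n b r B.1) =
      hb φ (fun r => nc n a r B.1) (fun r => nc n b r B'.1) := by
  have h1 := hb_left φ (fun r => nc n a r B'.1 + nc n a r B.1) (fun r => nc n b r B.1) hφ (h a)
  have h2 := hb_right φ (fun r => nc n a r B.1) (fun r => nc n b r B'.1 + nc n b r B.1) hφ (h b)
  rw [hb_add_left] at h1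
  rw [hb_add_right] at h2
  linarith

end bil

section known

variable {α : Type} [Finite α] {q : ℕ}

/-- the empty incomplete block -/
def e0 (hq : 0 < q) : Par α q := ⟨[], hq⟩

theorem rm_e0 (hq : 0 < q) (w : List α) :
    (rm (e0 hq) w).1 = w.reverse.take (w.length % q) ∧ (rm (e0 hq) w).1.length = w.length % q := by
  obtain ⟨h1, h2, -⟩ := rm_len w (e0 (α := α) hq)
  have h3 : (e0 (α := α) hq).1 = [] := rfl
  rw [h3, List.length_nil, Nat.zero_add] at h2
  rw [h3, List.append_nil, h2] at h1
  exact ⟨h1, h2⟩

theorem rm_known (hq : 0 < q) : Kn fun w : List α => rm (e0 (α := α) hq) w := by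
  have h1 := loc_known (n := q) (c := q) hq (fun X : List α => rm (e0 (α := α) hq) X.reverse) (by
    intro X Y h2 h3
    refine Subtype.ext ?_
    rw [(rm_e0 hq X.reverse).1, (rm_e0 hq Y.reverse).1, List.reverse_reverse, List.reverse_reverse,
      List.length_reverse, List.length_reverse, h2]
    have h4 : ∀ Z : List α, Z.take (Y.length % q) = (Z.take q).take (Y.length % q) := by
      intro Z
      rw [List.take_take, Nat.min_eq_left (Nat.mod_lt _ hq).le]
    rw [h4 X, h4 Y, h3])
  simpa only [List.reverse_reverse] using h1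

theorem ct_known (hq : 0 < q) (B : Blk α q) :
    KnZ fun w : List α => ct B (ps (e0 (α := α) hq) w) := by
  classical
  let F : ℕ → (Fin q → Option α) → ℤ := fun e W =>
    if q ∣ e ∧ W = (fun i => B.1[i.val]?) then 1 else 0
  have hF : ∀ e W, F (e + q) W = F e W := by
    intro e W
    have h1 : (q ∣ e + q ∧ W = fun i => B.1[i.val]?) ↔ (q ∣ e ∧ W = fun i => B.1[i.val]?) := by
      rw [Nat.dvd_add_self_right]
    exact if_congr h1 rfl rfl
  refine (stBn hq F hF).congr fun w => ?_
  induction w using List.reverseRecOn with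
  | nil => rfl
  | append_singleton w x ih =>
    rw [ps_append, List.reverse_append, List.reverse_singleton, List.singleton_append, oc, ← ih]
    obtain ⟨h1, h2⟩ := rm_e0 hq w
    have h3 : ((rm (e0 hq) w).1.length + 1 = q) ↔ q ∣ w.length + 1 := by
      rw [h2]
      have h5 := Nat.mod_lt w.length hq
      have h6 := Nat.div_add_mod w.length q
      constructor
      · intro h
        exact ⟨w.length / q + 1, by rw [Nat.mul_add, Nat.mul_one]; omega⟩
      · rintro ⟨c, hc⟩
        rcases Nat.lt_or_ge (w.length % q + 1) q with h | h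
        · exfalso
          have h7 : q ∣ w.length % q + 1 := by
            have h8 : q * (w.length / q) + (w.length % q + 1) = q * c := by omega
            exact (Nat.dvd_add_right (Dvd.intro _ rfl)).mp (h8 ▸ Dvd.intro c rfl)
          have := Nat.le_of_dvd (by omega) h7
          omega
        · omega
    rw [List.length_reverse]
    by_cases e : (rm (e0 hq) w).1.length + 1 = q
    · rw [ps_full x [] e, ps, ct_snoc]
      congr 1
      have h4 : (⟨x :: (rm (e0 hq) w).1, e⟩ : Blk α q) = B ↔
          win q (x :: w.reverse) = fun i => B.1[i.val]? := by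
        have h5 : x :: (rm (e0 hq) w).1 = (x :: w.reverse).take q := by
          rw [h1]
          have h6 : q = w.length % q + 1 := by rw [← h2]; exact e.symm
          conv_rhs => rw [h6]
          rw [List.take_succ_cons]
        constructor
        · intro h
          funext i
          show (x :: w.reverse)[i.val]? = B.1[i.val]?
          rw [← h]
          show _ = (x :: (rm (e0 hq) w).1)[i.val]?
          rw [h5, List.getElem?_take, if_pos i.2]
        · intro h
          refine Subtype.ext ?_
          show x :: (rm (e0 hq) w).1 = B.1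
          refine List.ext_getElem? fun i => ?_
          by_cases hi : i < q
          · have h6 := congrFun h ⟨i, hi⟩
            rw [h5, List.getElem?_take, if_pos hi]
            exact h6
          · rw [List.getElem?_eq_none (by rw [List.length_cons, e]; omega),
              List.getElem?_eq_none (by rw [B.2]; omega)]
      have h7 : F (w.length + 1) (win q (x :: w.reverse)) =
          if q ∣ w.length + 1 ∧ win q (x :: w.reverse) = (fun i => B.1[i.val]?) then 1 else 0 :=
        rfl
      rw [h7]
      by_cases h6 : win q (x :: w.reverse) = fun i => B.1[i.val]?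
      · rw [if_pos (h4.mpr h6), if_pos ⟨h3.mp e, h6⟩]
      · rw [if_neg fun h => h6 (h4.mp h), if_neg fun h => h6 h.2]
    · rw [ps_part x [] e, ps, List.append_nil]
      have h4 : F (w.length + 1) (win q (x :: w.reverse)) = 0 := if_neg fun h => e (h3.mpr h.1)
      rw [h4, add_zero]

theorem nc_known (hq : 0 < q) (a : α) (r : ZMod q) :
    KnZ fun w : List α => nc q a r w.reverse := by
  classical
  let F : ℕ → (Fin 1 → Option α) → ℤ := fun e W =>
    if W 0 = some a ∧ ((e : ℕ) : ZMod q) = r + 1 then 1 else 0
  have hF : ∀ e W, F (e + q) W = F e W := by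
    intro e W
    show (if _ ∧ (((e + q : ℕ)) : ZMod q) = r + 1 then (1 : ℤ) else 0) = _
    rw [Nat.cast_add, ZMod.natCast_self, add_zero]
  refine (stBn hq F hF).congr fun w => ?_
  generalize w.reverse = X
  induction X with
  | nil => rfl
  | cons x X ih =>
    rw [nc, oc, ih]
    congr 1
    have h1 : (x = a ∧ ((X.length : ℕ) : ZMod q) = r) ↔
        (win 1 (x :: X) 0 = some a ∧ ((X.length + 1 : ℕ) : ZMod q) = r + 1) := by
      have h2 : win 1 (x :: X) 0 = some x := rfl
      rw [h2, Nat.cast_add, Nat.cast_one, add_left_inj, Option.some.injEq]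
    show _ = if win 1 (x :: X) 0 = some a ∧ ((X.length + 1 : ℕ) : ZMod q) = r + 1 then (1 : ℤ)
      else 0
    by_cases h : x = a ∧ ((X.length : ℕ) : ZMod q) = r
    · rw [if_pos h, if_pos (h1.mp h)]
    · rw [if_neg h, if_neg fun h' => h (h1.mpr h')]

/-- **the hypothesis [Q1]** -/
def HP (α : Type) (q : ℕ) : Prop :=
  ∀ (K : Par α q) (g b : Blk α q), g ≠ b → ¬ Fl g → ¬ Fl b → ¬ Ex g b →
    KnZ fun w : List α => pc g b (ps K w)

theorem bracket [NeZero q] (hq : 0 < q) (hP : HP α q) (φ : ZMod q → ℤ) (hφ : ∑ g, φ g = 0)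
    (a b : α) (B' B : Blk α q) : KnZ fun w : List α =>
      pc B' B (ps (e0 (α := α) hq) w) *
          hb φ (fun r => nc q a r B'.1) (fun r => nc q b r B.1) +
        pc B B' (ps (e0 (α := α) hq) w) *
          hb φ (fun r => nc q a r B.1) (fun r => nc q b r B'.1) := by
  by_cases h1 : B' = B
  · subst h1
    have h2 := ct_known hq B'
    refine (((h2.mul h2).sub h2).mul_left
      (hb φ (fun r => nc q a r B'.1) (fun r => nc q b r B'.1))).congr fun w => ?_
    have h3 := pc_self B' (ps (e0 (α := α) hq) w)
    linear_combination (hb φ (fun r => nc q a r B'.1) (fun r => nc q b r B'.1)) * h3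
  by_cases h2 : Fl B'
  · refine (KnZ.const 0).congr fun w => ?_
    rw [hb_left φ (fun r => nc q a r B'.1) _ hφ (h2 a),
      hb_right φ _ (fun r => nc q b r B'.1) hφ (h2 b)]
    ring
  by_cases h3 : Fl B
  · refine (KnZ.const 0).congr fun w => ?_
    rw [hb_left φ (fun r => nc q a r B.1) _ hφ (h3 a),
      hb_right φ _ (fun r => nc q b r B.1) hφ (h3 b)]
    ring
  by_cases h4 : Ex B' B
  · refine (((ct_known hq B').mul (ct_known hq B)).mul_left
      (hb φ (fun r => nc q a r B'.1) (fun r => nc q b r B.1))).congr fun w => ?_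
    rw [← hb_ex φ hφ a b B' B h4]
    have h5 := pc_pc h1 (ps (e0 (α := α) hq) w)
    linear_combination (hb φ (fun r => nc q a r B'.1) (fun r => nc q b r B.1)) * h5
  have h5 : ¬ Ex B B' := fun h => h4 fun c r r' => by
    have := h c r r'
    linarith
  refine (((hP (e0 hq) B' B h1 h2 h3 h4).mul_left
      (hb φ (fun r => nc q a r B'.1) (fun r => nc q b r B.1))).add
    ((hP (e0 hq) B B' (Ne.symm h1) h3 h2 h5).mul_left
      (hb φ (fun r => nc q a r B.1) (fun r => nc q b r B'.1)))).congr fun w => ?_
  ring

/-- **twisted pair counts are known** -/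
theorem tw_known [NeZero q] (hq : 0 < q) (hP : HP α q) (φ : ZMod q → ℤ) (hφ : ∑ g, φ g = 0)
    (a b : α) : KnZ fun w : List α => ∑ g : ZMod q, φ g * PG q g a b w.reverse := by
  classical
  haveI := Fintype.ofFinite (Blk α q)
  -- the four parts
  have k1 : KnZ fun w : List α => ∑ g : ZMod q, φ g * PG q g a b (rm (e0 (α := α) hq) w).1 :=
    KnZ.of_kn (rm_known hq) fun K => ∑ g : ZMod q, φ g * PG q g a b K.1
  have k2 : KnZ fun w : List α => ∑ B : Blk α q, ct B (ps (e0 (α := α) hq) w) *
      hb φ (fun r => nc q a r B.1) (fun r => nc q b r (rm (e0 (α := α) hq) w).1) :=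
    KnZ.sum Finset.univ fun B _ => (ct_known hq B).mul (KnZ.of_kn (rm_known hq) fun K =>
      hb φ (fun r => nc q a r B.1) (fun r => nc q b r K.1))
  have k3 : KnZ fun w : List α => ∑ B : Blk α q, (∑ g : ZMod q, φ g * PG q g a b B.1) *
      ct B (ps (e0 (α := α) hq) w) :=
    KnZ.sum Finset.univ fun B _ => (ct_known hq B).mul_left _
  have k4 : KnZ fun w : List α => ∑ B' : Blk α q, ∑ B : Blk α q,
      pc B' B (ps (e0 (α := α) hq) w) *
        hb φ (fun r => nc q a r B'.1) (fun r => nc q b r B.1) := by
    refine KnZ.div (c := 2) two_pos ((KnZ.sum Finset.univ fun B' _ => KnZ.sum Finset.univ fun B _ =>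
      bracket hq hP φ hφ a b B' B).congr fun w => ?_)
    simp only [Finset.sum_add_distrib]
    rw [Finset.sum_comm (f := fun B' B : Blk α q => pc B B' (ps (e0 (α := α) hq) w) *
      hb φ (fun r => nc q a r B.1) (fun r => nc q b r B'.1))]
    push_cast
    ring
  refine (((k1.add k2).add k3).add k4).congr fun w => ?_
  have h0 : w.reverse = (rm (e0 (α := α) hq) w).1 ++ fl (ps (e0 (α := α) hq) w) := by
    have h := dec w (e0 (α := α) hq)
    rw [← h]
    exact (List.append_nil _).symm
  rw [h0]
  have h1 : ∀ g : ZMod q, φ g * PG q g a b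
      ((rm (e0 (α := α) hq) w).1 ++ fl (ps (e0 (α := α) hq) w)) =
      φ g * PG q g a b (rm (e0 (α := α) hq) w).1 +
      (∑ B : Blk α q, ct B (ps (e0 (α := α) hq) w) * (φ g *
        ∑ s : ZMod q, nc q b s (rm (e0 (α := α) hq) w).1 * nc q a (s - g) B.1)) +
      (∑ B : Blk α q, φ g * PG q g a b B.1 * ct B (ps (e0 (α := α) hq) w)) +
      ∑ B' : Blk α q, ∑ B : Blk α q, pc B' B (ps (e0 (α := α) hq) w) *
        (φ g * ∑ s : ZMod q, nc q b s B.1 * nc q a (s - g) B'.1) := by
    intro g
    rw [PG_append _ _ _ _ _ (fl_cast _), cr_fl, PG_fl]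
    simp only [mul_add, Finset.mul_sum, hh]
    rw [← add_assoc]
    congr 1
    · congr 1
      · congr 1
        refine Finset.sum_congr rfl fun B _ => Finset.sum_congr rfl fun s _ => by ring
      · exact Finset.sum_congr rfl fun B _ => by ring
    · refine Finset.sum_congr rfl fun B' _ => Finset.sum_congr rfl fun B _ =>
        Finset.sum_congr rfl fun s _ => by ring
  rw [Finset.sum_congr rfl fun g _ => h1 g]
  simp only [Finset.sum_add_distrib]
  congr 1
  · congr 1
    · congr 1
      rw [Finset.sum_comm]
      refine Finset.sum_congr rfl fun B _ => ?_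
      rw [← Finset.mul_sum]
      rfl
    · rw [Finset.sum_comm]
      refine Finset.sum_congr rfl fun B _ => ?_
      rw [← Finset.sum_mul]
  · rw [Finset.sum_comm]
    refine Finset.sum_congr rfl fun B' _ => ?_
    rw [Finset.sum_comm]
    refine Finset.sum_congr rfl fun B _ => ?_
    rw [← Finset.mul_sum]
    rfl

/-- **pair counts by differences are known** -/
theorem pg_known [NeZero q] (hP : HP α q) (g : ZMod q) (a b : α) :
    KnZ fun w : List α => PG q g a b w.reverse := by
  classical
  have hq : 0 < q := Nat.pos_of_ne_zero (NeZero.ne q)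
  have hφ : ∑ s : ZMod q, ((q : ℤ) * (if s = g then 1 else 0) - 1) = 0 := by
    rw [Finset.sum_sub_distrib, ← Finset.mul_sum, Finset.sum_ite_eq', if_pos (Finset.mem_univ _),
      Finset.sum_const, Finset.card_univ, ZMod.card]
    simp
  refine KnZ.div hq (((tw_known hq hP _ hφ a b).add (H487.pairH α a b)).congr fun w => ?_)
  have h1 : ∀ s : ZMod q, ((q : ℤ) * (if s = g then 1 else 0) - 1) * PG q s a b w.reverse =
      (if s = g then (q : ℤ) * PG q s a b w.reverse else 0) - PG q s a b w.reverse := by
    intro s
    by_cases h : s = g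
    · rw [if_pos h, if_pos h]; ring
    · rw [if_neg h, if_neg h]; ring
  rw [Finset.sum_congr rfl fun s _ => h1 s, Finset.sum_sub_distrib, Finset.sum_ite_eq',
    if_pos (Finset.mem_univ _), sum_PG, List.reverse_reverse]
  ring

end known

end Vale.Agent.P329.H766.Q2
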