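import Vale.Agent.P329.H131.Q1

/-!
# P329 / pair counts of blocks of `N` letters, every `N`

helper131's argument with the greatest common divisor in the place of the Chinese remainder
theorem (remark of helper67).
-/

set_option linter.all false

namespace Vale.Agent.P329.H766.QN

open Vale.Agent.P329 Vale.Agent.P329.H559 Vale.Agent.P329.H559.C2 Vale.Agent.P329.H131

section nocyc

variable {α : Type} {N : ℕ} {M : ℕ} [NeZero M] {d : Blk α N → ℤ} {T : Blk α N → Prop}

theorem nocyc_n (hN : 0 < N) (hd : ∀ B, d B = 0 ∨ d B = 1)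
    (hf : ∀ g, g ∣ N → g < N → ∀ f : ℕ → α, ∃ j, d ⟨wd N f (g * j), wd_len f (g * j)⟩ ≠ 0) :
    NoCyc (lf (st (M := M) d T)) := by
  rintro z ⟨s, K⟩ n hn hrun
  change run (lf (st d T)) (s, K) (pw z n) = some (s, K) at hrun
  by_cases hz : z = []
  · subst hz; rfl
  have hz' : 0 < z.length := List.length_pos_iff.mpr hz
  have key : ∀ j, run (st d T) s (ps K (pw z (n * j))) = some s ∧ rm K (pw z (n * j)) = K := by
    intro j
    have h1 := run_pw hrun j
    rw [← pw_mul, run_lf] at h1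
    rcases h3 : run (st d T) s (ps K (pw z (n * j))) with _ | t
    · rw [h3] at h1; cases h1
    · rw [h3] at h1
      have h4 := Option.some.inj h1
      have h5 : t = s := congrArg Prod.fst h4
      exact ⟨by rw [h5], congrArg Prod.snd h4⟩
  by_cases hd' : N ∣ z.length
  · obtain ⟨h1, h2⟩ := key 1
    rw [Nat.mul_one] at h1 h2
    have h3 := rm_cyc hn hz hd' h2
    have h4 := loop_all hd h1
    obtain ⟨k, rfl⟩ : ∃ k, n = k + 1 := ⟨n - 1, by omega⟩
    rw [pw_succ, ps_append] at h1 h4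
    obtain ⟨s1, h5, -⟩ := run_append_eq_some h1
    have h6 := run_const (fun x hx => h4 x (List.mem_append_left _ hx)) h5
    rw [run_lf, h5, h3, h6]
    rfl
  exfalso
  have hK := K.2
  let f : ℕ → α := fun t => z[t % z.length]'(Nat.mod_lt _ hz')
  let f' : ℕ → α := fun t => f (N - K.1.length + t)
  have hgN : Nat.gcd N z.length < N := by
    rcases Nat.lt_or_ge (Nat.gcd N z.length) N with h | h
    · exact h
    · exfalso
      have h1 := Nat.le_antisymm (Nat.le_of_dvd hN (Nat.gcd_dvd_left N z.length)) h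
      exact hd' (h1 ▸ Nat.gcd_dvd_right N z.length)
  obtain ⟨j, hj⟩ := hf _ (Nat.gcd_dvd_left N z.length) hgN f'
  -- a multiple of `N` which is the greatest common divisor modulo the length
  have hm : ∃ m0, (N * m0) % z.length = (Nat.gcd N z.length) % z.length := by
    by_cases h : Nat.gcd N z.length < z.length
    · obtain ⟨m0, h1⟩ := Nat.exists_mul_mod_eq_gcd h
      exact ⟨m0, by rw [h1.2, Nat.mod_eq_of_lt h]⟩
    · have h1 : Nat.gcd N z.length = z.length :=
        Nat.le_antisymm (Nat.le_of_dvd hz' (Nat.gcd_dvd_right N z.length)) (not_lt.mp h)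
      refine ⟨0, ?_⟩
      rw [Nat.mul_zero, h1, Nat.mod_self, Nat.zero_mod]
  obtain ⟨m0, hm0⟩ := hm
  set t' := (N - K.1.length) + N * m0 * j with ht'
  have h3 : (K.1.length + t') % N = 0 := by
    rw [ht', show K.1.length + (N - K.1.length + N * m0 * j) = N + N * (m0 * j) by
      rw [← Nat.mul_assoc]; omega]
    simp
  have h5 : wd N f t' = wd N f' (Nat.gcd N z.length * j) := by
    refine wd_congr fun i _ => ?_
    change z[(t' + i) % z.length]'_ =
      z[(N - K.1.length + (Nat.gcd N z.length * j + i)) % z.length]'_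
    have h6 : N * m0 * j ≡ Nat.gcd N z.length * j [MOD z.length] :=
      Nat.ModEq.mul_right j hm0
    have : (t' + i) % z.length =
        (N - K.1.length + (Nat.gcd N z.length * j + i)) % z.length := by
      have h7 : N - K.1.length + N * m0 * j + i ≡
          N - K.1.length + Nat.gcd N z.length * j + i [MOD z.length] :=
        Nat.ModEq.add_right i (Nat.ModEq.add_left _ h6)
      rw [← Nat.add_assoc]
      exact h7
    simp only [this]
  obtain ⟨B, h6, h7⟩ := mem_ps (m := (n * (t' + N)) * z.length) hN f K h3 (by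
    calc t' + N = 1 * (t' + N) * 1 := by ring
      _ ≤ n * (t' + N) * z.length :=
        Nat.mul_le_mul (Nat.mul_le_mul_right _ hn) hz')
  rw [← pw_range z hz'] at h6
  have h8 := loop_all hd (key (t' + N)).1 B h6
  apply hj
  have h9 : B = ⟨wd N f' (Nat.gcd N z.length * j), wd_len _ _⟩ := Subtype.ext (h7.trans h5)
  rw [← h9, h8]

end nocyc

section known

variable {α : Type} [Finite α] {N : ℕ}

/-- admissible weights -/
def AdN (d : Blk α N → ℤ) : Prop :=
  (∀ B, d B = 0 ∨ d B = 1) ∧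
    ∀ g, g ∣ N → g < N → ∀ f : ℕ → α, ∃ j, d ⟨wd N f (g * j), wd_len f (g * j)⟩ ≠ 0

theorem kz_el (hN : 0 < N) {d : Blk α N → ℤ} (hd : AdN d) {β : Blk α N} (hβ : d β = 0) {M : ℕ}
    [NeZero M] (u : ZMod M) : KZ fun w => el d β u w := by
  intro K
  have h3 := KnZ.of_event (nocyc_n (M := M) (T := fun x => β = x) hN hd.1 hd.2)
    (0, ⟨[], hN⟩) (u, K)
  have h4 := KnZ.of_event (nocyc_n (M := M) (T := fun _ => False) hN hd.1 hd.2)
    (0, ⟨[], hN⟩) (u, K)
  refine (h3.sub h4).congr fun w => ?_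
  change el d β u (ps K w) = _
  rw [← el_eq d β hβ, (fin_lf ⟨[], hN⟩ rfl 0 w u K).2, (fin_lf ⟨[], hN⟩ rfl 0 w u K).2]

theorem kz_dP (hN : 0 < N) {d : Blk α N → ℤ} (hd : AdN d) {β : Blk α N} (hβ : d β = 0) :
    KZ fun w => dP d β 0 w := by
  intro K n hn
  haveI : NeZero n := ⟨hn.ne'⟩
  have h1 := kn_sum (α := α) (A := ZMod n) (Finset.univ : Finset (ZMod n)) fun u _ =>
    (kz_el hN hd hβ u K n hn).comp fun x => (((0 : ℤ) : ZMod n) - u) * x
  intro v
  refine Eq.mp (congrArg (SH 1) ?_) (h1 v)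
  ext w
  change (∑ u : ZMod n, (((0 : ℤ) : ZMod n) - u) * ((el d β u (ps K w) : ℤ) : ZMod n)) = v ↔
    ((dP d β 0 (ps K w) : ℤ) : ZMod n) = v
  rw [dP_el]

/-- proper powers -/
def Pw (B : Blk α N) : Prop :=
  ∃ g, g ∣ N ∧ g < N ∧ ∀ i, i + g < N → B.1[i + g]? = B.1[i]?

/-- the exceptional pairs -/
def ExN (B C : Blk α N) : Prop :=
  ∃ g, g ∣ N ∧ g < N ∧ ∀ i, i + g < N → B.1[i + g]? = C.1[i]? ∧ C.1[i + g]? = B.1[i]?

theorem ExN.symm {B C : Blk α N} (h : ExN B C) : ExN C B := by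
  obtain ⟨g, h1, h2, h3⟩ := h
  exact ⟨g, h1, h2, fun i hi => (h3 i hi).symm⟩

theorem pw_of {g : ℕ} (hg : g ∣ N) (hlt : g < N) {f : ℕ → α} {t : ℕ} {B : Blk α N}
    (h : wd N f t = wd N f (t + g)) (hB : B.1 = wd N f t) : Pw B := by
  refine ⟨g, hg, hlt, fun i hi => ?_⟩
  rw [hB, wd_get f t hi, wd_get f t (by omega : i < N)]
  congr 1
  have h1 := wd_inj h (N - 1 - (i + g)) (by omega)
  rw [h1]
  congr 1
  omega

theorem ex_of {g : ℕ} (hg : g ∣ N) (hlt : g < N) {f : ℕ → α} {t : ℕ} {B C : Blk α N}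
    (h : wd N f t = wd N f (t + 2 * g)) (hB : B.1 = wd N f t) (hC : C.1 = wd N f (t + g)) :
    ExN B C := by
  refine ⟨g, hg, hlt, fun i hi => ⟨?_, ?_⟩⟩
  · rw [hB, hC, wd_get f t hi, wd_get f (t + g) (by omega : i < N)]
    congr 1
    have h1 := wd_inj h (N - 1 - (i + g)) (by omega)
    rw [h1]
    congr 1
    omega
  · rw [hB, hC, wd_get f (t + g) hi, wd_get f t (by omega : i < N)]
    congr 2
    omega

open Classical in
theorem ad_two_n (hN : 0 < N) {β γ : Blk α N} (hβ : ¬ Pw β) (hγ : ¬ Pw γ) (hE : ¬ ExN β γ)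
    {g : ℕ} (hg : g ∣ N) (hlt : g < N) (f : ℕ → α) :
    ∃ j, (⟨wd N f (g * j), wd_len f (g * j)⟩ : Blk α N) ≠ β ∧
      (⟨wd N f (g * j), wd_len f (g * j)⟩ : Blk α N) ≠ γ := by
  by_contra hc
  have hc' : ∀ j, (⟨wd N f (g * j), wd_len f (g * j)⟩ : Blk α N) = β ∨
      (⟨wd N f (g * j), wd_len f (g * j)⟩ : Blk α N) = γ := by
    intro t
    by_contra h
    exact hc ⟨t, fun h1 => h (Or.inl h1), fun h1 => h (Or.inr h1)⟩
  have hne : ∀ j, wd N f (g * j) ≠ wd N f (g * (j + 1)) := by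
    intro j h
    rw [Nat.mul_succ] at h
    rcases hc' j with h1 | h1
    · exact hβ (pw_of hg hlt h (congrArg Subtype.val h1).symm)
    · exact hγ (pw_of hg hlt h (congrArg Subtype.val h1).symm)
  have h02 : wd N f (g * 0) = wd N f (g * 2) := by
    rcases hc' 0 with h0 | h0 <;> rcases hc' 1 with h1 | h1 <;> rcases hc' 2 with h2 | h2 <;>
      have e0 := congrArg Subtype.val h0 <;> have e1 := congrArg Subtype.val h1 <;>
      have e2 := congrArg Subtype.val h2 <;> dsimp only at e0 e1 e2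
    · exact e0.trans e2.symm
    · exact absurd (e0.trans e1.symm) (hne 0)
    · exact e0.trans e2.symm
    · exact absurd (e1.trans e2.symm) (hne 1)
    · exact absurd (e1.trans e2.symm) (hne 1)
    · exact e0.trans e2.symm
    · exact absurd (e0.trans e1.symm) (hne 0)
    · exact e0.trans e2.symm
  have h3 : wd N f (g * 0) = wd N f (g * 0 + 2 * g) := by
    rw [h02]; congr 1; ring
  have h4 : g * 1 = g * 0 + g := by ring
  rcases hc' 0 with h0 | h0 <;> rcases hc' 1 with h1 | h1 <;>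
    have e0 := congrArg Subtype.val h0 <;> have e1 := congrArg Subtype.val h1 <;>
    dsimp only at e0 e1
  · exact hne 0 (e0.trans e1.symm)
  · exact hE (ex_of hg hlt h3 e0.symm (by rw [← e1, h4]))
  · exact hE (ExN.symm (ex_of hg hlt h3 e0.symm (by rw [← e1, h4])))
  · exact hne 0 (e0.trans e1.symm)

/-- **pair counts of blocks** -/
theorem pcn (hN : 0 < N) (K : Par α N) {γ β : Blk α N} (hne : γ ≠ β) (hγ : ¬ Pw γ)
    (hβ : ¬ Pw β) (hE : ¬ ExN β γ) : KnZ fun w : List α => pc γ β (ps K w) := by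
  classical
  let e₁ : Blk α N → ℤ := fun B => if B = β then 0 else 1
  let e₂ : Blk α N → ℤ := fun B => if B = β ∨ B = γ then 0 else 1
  have a2 : AdN e₂ := by
    refine ⟨fun B => ?_, fun g hg hlt f => ?_⟩
    · change (if B = β ∨ B = γ then (0 : ℤ) else 1) = 0 ∨
        (if B = β ∨ B = γ then (0 : ℤ) else 1) = 1
      split
      · exact Or.inl rfl
      · exact Or.inr rfl
    · obtain ⟨t, h1, h2⟩ := ad_two_n hN hβ hγ hE hg hlt f
      refine ⟨t, ?_⟩
      change (if _ = β ∨ _ = γ then (0 : ℤ) else 1) ≠ 0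
      rw [if_neg (fun h => h.elim h1 h2)]
      decide
  have a1 : AdN e₁ := by
    refine ⟨fun B => ?_, fun g hg hlt f => ?_⟩
    · change (if B = β then (0 : ℤ) else 1) = 0 ∨ (if B = β then (0 : ℤ) else 1) = 1
      split
      · exact Or.inl rfl
      · exact Or.inr rfl
    · obtain ⟨t, h1, -⟩ := ad_two_n hN hβ hγ hE hg hlt f
      refine ⟨t, ?_⟩
      change (if _ = β then (0 : ℤ) else 1) ≠ 0
      rw [if_neg h1]
      decide
  have b1 : e₁ β = 0 := if_pos rfl
  have b2 : e₂ β = 0 := if_pos (Or.inl rfl)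
  refine ((kz_dP hN a1 b1 K).sub (kz_dP hN a2 b2 K)).congr fun w => ?_
  have h1 := dP_sub e₁ e₂ (fun x => if x = γ then 1 else 0) (fun x => by
    change (if x = β then (0 : ℤ) else 1) = (if x = β ∨ x = γ then (0 : ℤ) else 1) +
      (if x = γ then 1 else 0)
    by_cases h1 : x = β
    · rw [if_pos h1, if_pos (Or.inl h1), if_neg (fun h2 => hne (h2.symm.trans h1))]; rfl
    · by_cases h2 : x = γ
      · rw [if_neg h1, if_pos (Or.inr h2), if_pos h2]; rfl
      · rw [if_neg h1, if_neg (fun h => h.elim h1 h2), if_neg h2]; rfl) β (ps K w) 0 0 0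
    (by ring)
  change pc γ β (ps K w) = dP e₁ β 0 (ps K w) - dP e₂ β 0 (ps K w)
  have h2 : dP (fun x => if x = γ then 1 else 0) β 0 (ps K w) = pcA γ β 0 (ps K w) := by
    convert dP_pc γ β (ps K w) 0
  rw [h1, h2, pc]
  ring

end known

end Vale.Agent.P329.H766.QN
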