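import Vale.Agent.P329.H766.Q2F
import Vale.Agent.P329.H766.QN1

/-!
# P329 / pair counts of letters by the difference of the positions modulo `N`, every `N`
-/

set_option linter.all false

namespace Vale.Agent.P329.H766.QN

open Vale.Agent.P329 Vale.Agent.P329.H559.C2 Vale.Agent.P329.H67 Vale.Agent.P329.H265.AllN
  Vale.Agent.P329.H766.Q2

section prim

variable {N : ℕ} [NeZero N]

/-- `φ` kills the functions with a proper period -/
def Prim (φ : ZMod N → ℤ) : Prop :=
  ∀ g, g ∣ N → g < N → ∀ u : ZMod N → ℤ, (∀ r, u (r + (g : ZMod N)) = u r) →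
    ∀ s, ∑ x, φ x * u (s - x) = 0

theorem hb_left' (φ u v : ZMod N → ℤ) (h : ∀ s, ∑ x, φ x * u (s - x) = 0) : hb φ u v = 0 := by
  unfold hb
  simp only [Finset.mul_sum]
  rw [Finset.sum_comm]
  refine Finset.sum_eq_zero fun s _ => ?_
  have h1 : ∑ x, φ x * (v s * u (s - x)) = v s * ∑ x, φ x * u (s - x) := by
    rw [Finset.mul_sum]
    exact Finset.sum_congr rfl fun x _ => by ring
  rw [h1, h s, mul_zero]

theorem hb_right' (φ u v : ZMod N → ℤ) (h : ∀ s, ∑ x, φ x * v (x - s) = 0) : hb φ u v = 0 := by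
  unfold hb
  have h0 : ∀ g : ZMod N, ∑ s : ZMod N, v s * u (s - g) = ∑ t : ZMod N, v (g - t) * u (-t) := by
    intro g
    rw [← Equiv.sum_comp (Equiv.subLeft g)]
    refine Finset.sum_congr rfl fun t _ => ?_
    show v (g - t) * u (g - t - g) = v (g - t) * u (-t)
    congr 2
    ring
  simp only [h0, Finset.mul_sum]
  rw [Finset.sum_comm]
  refine Finset.sum_eq_zero fun s _ => ?_
  have h1 : ∑ x, φ x * (v (x - s) * u (-s)) = u (-s) * ∑ x, φ x * v (x - s) := by
    rw [Finset.mul_sum]
    exact Finset.sum_congr rfl fun x _ => by ring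
  rw [h1, h s, mul_zero]

theorem Prim.left {φ : ZMod N → ℤ} (hφ : Prim φ) {g : ℕ} (h1 : g ∣ N) (h2 : g < N)
    (u v : ZMod N → ℤ) (hu : ∀ r, u (r + (g : ZMod N)) = u r) : hb φ u v = 0 :=
  hb_left' φ u v (hφ g h1 h2 u hu)

theorem Prim.right {φ : ZMod N → ℤ} (hφ : Prim φ) {g : ℕ} (h1 : g ∣ N) (h2 : g < N)
    (u v : ZMod N → ℤ) (hv : ∀ r, v (r + (g : ZMod N)) = v r) : hb φ u v = 0 := by
  refine hb_right' φ u v fun s => ?_
  have h3 := hφ g h1 h2 (fun r => v (-r)) (fun r => by
    show v (-(r + (g : ZMod N))) = v (-r)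
    rw [← hv (-(r + (g : ZMod N)))]
    congr 1
    ring) s
  rw [← h3]
  refine Finset.sum_congr rfl fun x _ => ?_
  show _ = φ x * v (-(s - x))
  rw [neg_sub]

theorem per_ext {g : ℕ} (hg : g ∣ N) (hlt : g < N) (F : ℕ → ℤ)
    (hF : ∀ p, p + g < N → F (p + g) = F p) (r : ZMod N) : F (r + (g : ZMod N)).val = F r.val := by
  have hN : 0 < N := Nat.pos_of_ne_zero (NeZero.ne N)
  have hg0 : 0 < g := Nat.pos_of_dvd_of_pos hg hN
  have h1 : ∀ p, p < N → F p = F (p % g) := by
    intro p
    induction p using Nat.strong_induction_on with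
    | _ p ih =>
      intro hp
      by_cases h : p < g
      · rw [Nat.mod_eq_of_lt h]
      · have h2 := hF (p - g) (by omega)
        rw [show p - g + g = p by omega] at h2
        rw [h2, ih (p - g) (by omega) (by omega), ← Nat.mod_eq_sub_mod (by omega)]
  rw [h1 _ (ZMod.val_lt _), h1 _ (ZMod.val_lt r)]
  congr 1
  rw [ZMod.val_add, ZMod.val_natCast, Nat.mod_eq_of_lt hlt, Nat.mod_mod_of_dvd _ hg,
    Nat.add_mod_right]

variable {α : Type}

theorem nc_pw {B : Blk α N} {g : ℕ} (hg : g ∣ N) (hlt : g < N)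
    (h : ∀ i, i + g < N → B.1[i + g]? = B.1[i]?) (a : α) (r : ZMod N) :
    nc N a (r + (g : ZMod N)) B.1 = nc N a r B.1 := by
  classical
  rw [nc_blk, nc_blk]
  refine per_ext hg hlt (fun p => if B.1[N - 1 - p]? = some a then 1 else 0) (fun p hp => ?_) r
  have h1 := h (N - 1 - (p + g)) (by omega)
  rw [show N - 1 - (p + g) + g = N - 1 - p by omega] at h1
  show (if B.1[N - 1 - (p + g)]? = some a then (1 : ℤ) else 0) =
    if B.1[N - 1 - p]? = some a then 1 else 0
  rw [h1]

theorem nc_ex {B C : Blk α N} {g : ℕ} (hg : g ∣ N) (hlt : g < N)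
    (h : ∀ i, i + g < N → B.1[i + g]? = C.1[i]? ∧ C.1[i + g]? = B.1[i]?) (a : α) (r : ZMod N) :
    nc N a (r + (g : ZMod N)) B.1 + nc N a (r + (g : ZMod N)) C.1 =
      nc N a r B.1 + nc N a r C.1 := by
  classical
  rw [nc_blk, nc_blk, nc_blk, nc_blk]
  refine per_ext hg hlt (fun p => (if B.1[N - 1 - p]? = some a then (1 : ℤ) else 0) +
    if C.1[N - 1 - p]? = some a then 1 else 0) (fun p hp => ?_) r
  obtain ⟨h1, h2⟩ := h (N - 1 - (p + g)) (by omega)
  rw [show N - 1 - (p + g) + g = N - 1 - p by omega] at h1 h2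
  show (if B.1[N - 1 - (p + g)]? = some a then (1 : ℤ) else 0) +
      (if C.1[N - 1 - (p + g)]? = some a then 1 else 0) =
    (if B.1[N - 1 - p]? = some a then (1 : ℤ) else 0) +
      if C.1[N - 1 - p]? = some a then 1 else 0
  rw [h1, h2, add_comm]

theorem hb_exn {φ : ZMod N → ℤ} (hφ : Prim φ) (a b : α) {B' B : Blk α N} (h : ExN B' B) :
    hb φ (fun r => nc N a r B'.1) (fun r => nc N b r B.1) =
      hb φ (fun r => nc N a r B.1) (fun r => nc N b r B'.1) := by
  obtain ⟨g, hg, hlt, h⟩ := h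
  have h1 := hφ.left hg hlt (fun r => nc N a r B'.1 + nc N a r B.1) (fun r => nc N b r B.1)
    (nc_ex hg hlt h a)
  have h2 := hφ.right hg hlt (fun r => nc N a r B.1) (fun r => nc N b r B'.1 + nc N b r B.1)
    (nc_ex hg hlt h b)
  rw [hb_add_left] at h1
  rw [hb_add_right] at h2
  linarith

end prim

section known

variable {α : Type} [Finite α] {q : ℕ}

theorem bracket_n [NeZero q] (hq : 0 < q) (φ : ZMod q → ℤ) (hφ : Prim φ)
    (a b : α) (B' B : Blk α q) : KnZ fun w : List α =>
      pc B' B (ps (e0 (α := α) hq) w) *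
          hb φ (fun r => nc q a r B'.1) (fun r => nc q b r B.1) +
        pc B B' (ps (e0 (α := α) hq) w) *
          hb φ (fun r => nc q a r B.1) (fun r => nc q b r B'.1) := by
  by_cases h1 : B' = B
  · subst h1
    have h2 := ct_known hq B'
    refine (((h2.mul h2).sub h2).mul_left
      (hb φ (fun r => nc q a r B'.1) (fun r => nc q b r B'.1))).congr fun w => ?_
    have h3 := pc_self B' (ps (e0 (α := α) hq) w)
    linear_combination (hb φ (fun r => nc q a r B'.1) (fun r => nc q b r B'.1)) * h3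
  by_cases h2 : Pw B'
  · obtain ⟨g, hg, hlt, h2⟩ := h2
    refine (KnZ.const 0).congr fun w => ?_
    rw [hφ.left hg hlt (fun r => nc q a r B'.1) _ (nc_pw hg hlt h2 a),
      hφ.right hg hlt _ (fun r => nc q b r B'.1) (nc_pw hg hlt h2 b)]
    ring
  by_cases h3 : Pw B
  · obtain ⟨g, hg, hlt, h3⟩ := h3
    refine (KnZ.const 0).congr fun w => ?_
    rw [hφ.left hg hlt (fun r => nc q a r B.1) _ (nc_pw hg hlt h3 a),
      hφ.right hg hlt _ (fun r => nc q b r B.1) (nc_pw hg hlt h3 b)]
    ring
  by_cases h4 : ExN B' B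
  · refine (((ct_known hq B').mul (ct_known hq B)).mul_left
      (hb φ (fun r => nc q a r B'.1) (fun r => nc q b r B.1))).congr fun w => ?_
    rw [← hb_exn hφ a b h4]
    have h5 := pc_pc h1 (ps (e0 (α := α) hq) w)
    linear_combination (hb φ (fun r => nc q a r B'.1) (fun r => nc q b r B.1)) * h5
  have h5 : ¬ ExN B B' := fun h => h4 h.symm
  refine (((pcn hq (e0 hq) h1 h2 h3 h5).mul_left
      (hb φ (fun r => nc q a r B'.1) (fun r => nc q b r B.1))).add
    ((pcn hq (e0 hq) (Ne.symm h1) h3 h2 h4).mul_left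
      (hb φ (fun r => nc q a r B.1) (fun r => nc q b r B'.1)))).congr fun w => ?_
  ring

/-- **twisted pair counts are known** -/
theorem tw_known_n [NeZero q] (hq : 0 < q) (φ : ZMod q → ℤ) (hφ : Prim φ)
    (a b : α) : KnZ fun w : List α => ∑ g : ZMod q, φ g * PG q g a b w.reverse := by
  classical
  haveI := Fintype.ofFinite (Blk α q)
  have k1 : KnZ fun w : List α => ∑ g : ZMod q, φ g * PG q g a b (rm (e0 (α := α) hq) w).1 :=
    KnZ.of_kn (rm_known hq) fun K => ∑ g : ZMod q, φ g * PG q g a b K.1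
  have k2 : KnZ fun w : List α => ∑ B : Blk α q, ct B (ps (e0 (α := α) hq) w) *
      hb φ (fun r => nc q a r B.1) (fun r => nc q b r (rm (e0 (α := α) hq) w).1) :=
    KnZ.sum Finset.univ fun B _ => (ct_known hq B).mul (KnZ.of_kn (rm_known hq) fun K =>
      hb φ (fun r => nc q a r B.1) (fun r => nc q b r K.1))
  have k3 : KnZ fun w : List α => ∑ B : Blk α q, (∑ g : ZMod q, φ g * PG q g a b B.1) *
      ct B (ps (e0 (α := α) hq) w) :=
    KnZ.sum Finset.univ fun B _ => (ct_known hq B).mul_left _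
  have k4 : KnZ fun w : List α => ∑ B' : Blk α q, ∑ B : Blk α q,
      pc B' B (ps (e0 (α := α) hq) w) *
        hb φ (fun r => nc q a r B'.1) (fun r => nc q b r B.1) := by
    refine KnZ.div (c := 2) two_pos ((KnZ.sum Finset.univ fun B' _ => KnZ.sum Finset.univ fun B _ =>
      bracket_n hq φ hφ a b B' B).congr fun w => ?_)
    simp only [Finset.sum_add_distrib]
    rw [Finset.sum_comm (f := fun B' B : Blk α q => pc B B' (ps (e0 (α := α) hq) w) *
      hb φ (fun r => nc q a r B.1) (fun r => nc q b r B'.1))]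
    push_cast
    ring
  refine (((k1.add k2).add k3).add k4).congr fun w => ?_
  have h0 : w.reverse = (rm (e0 (α := α) hq) w).1 ++ fl (ps (e0 (α := α) hq) w) := by
    have h := dec w (e0 (α := α) hq)
    rw [← h]
    exact (List.append_nil _).symm
  rw [h0]
  have h1 : ∀ g : ZMod q, φ g * PG q g a b
      ((rm (e0 (α := α) hq) w).1 ++ fl (ps (e0 (α := α) hq) w)) =
      φ g * PG q g a b (rm (e0 (α := α) hq) w).1 +
      (∑ B : Blk α q, ct B (ps (e0 (α := α) hq) w) * (φ g *
        ∑ s : ZMod q, nc q b s (rm (e0 (α := α) hq) w).1 * nc q a (s - g) B.1)) +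
      (∑ B : Blk α q, φ g * PG q g a b B.1 * ct B (ps (e0 (α := α) hq) w)) +
      ∑ B' : Blk α q, ∑ B : Blk α q, pc B' B (ps (e0 (α := α) hq) w) *
        (φ g * ∑ s : ZMod q, nc q b s B.1 * nc q a (s - g) B'.1) := by
    intro g
    rw [PG_append _ _ _ _ _ (fl_cast _), cr_fl, PG_fl]
    simp only [mul_add, Finset.mul_sum, hh]
    rw [← add_assoc]
    congr 1
    · congr 1
      · congr 1
        refine Finset.sum_congr rfl fun B _ => Finset.sum_congr rfl fun s _ => by ring
      · exact Finset.sum_congr rfl fun B _ => by ring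
    · refine Finset.sum_congr rfl fun B' _ => Finset.sum_congr rfl fun B _ =>
        Finset.sum_congr rfl fun s _ => by ring
  rw [Finset.sum_congr rfl fun g _ => h1 g]
  simp only [Finset.sum_add_distrib]
  congr 1
  · congr 1
    · congr 1
      rw [Finset.sum_comm]
      refine Finset.sum_congr rfl fun B _ => ?_
      rw [← Finset.mul_sum]
      rfl
    · rw [Finset.sum_comm]
      refine Finset.sum_congr rfl fun B _ => ?_
      rw [← Finset.sum_mul]
  · rw [Finset.sum_comm]
    refine Finset.sum_congr rfl fun B' _ => ?_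
    rw [Finset.sum_comm]
    refine Finset.sum_congr rfl fun B _ => ?_
    rw [← Finset.mul_sum]
    rfl

end known

section dist

variable {α : Type}

open Classical in
/-- sum of `ψ (distance)` over the letters `a`, seen from the next position -/
noncomputable def tn (a : α) : (ℕ → ℤ) → List α → ℤ
  | _, [] => 0
  | ψ, y :: X => (if y = a then ψ 1 else 0) + tn a (fun k => ψ (k + 1)) X

open Classical in
/-- sum of `ψ (distance)` over the pairs of a letter `a` and a newer letter `b` -/
noncomputable def tp (ψ : ℕ → ℤ) (a b : α) : List α → ℤ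
  | [] => 0
  | x :: X => tp ψ a b X + if x = b then tn a ψ X else 0

theorem tn_nc {N : ℕ} [NeZero N] (a : α) (X : List α) : ∀ φ : ZMod N → ℤ,
    tn a (fun k => φ (k : ZMod N)) X =
      ∑ x : ZMod N, φ x * nc N a (((X.length : ℕ) : ZMod N) - x) X := by
  classical
  induction X with
  | nil =>
    intro φ
    rw [tn]
    exact (Finset.sum_eq_zero fun x _ => by rw [nc, mul_zero]).symm
  | cons y X ih =>
    intro φ
    rw [tn]
    have h1 : (fun k : ℕ => φ ((k + 1 : ℕ) : ZMod N)) =
        fun k : ℕ => (fun x : ZMod N => φ (x + 1)) (k : ZMod N) := by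
      funext k
      show φ ((k + 1 : ℕ) : ZMod N) = φ ((k : ZMod N) + 1)
      rw [Nat.cast_add, Nat.cast_one]
    rw [h1, ih (fun x : ZMod N => φ (x + 1))]
    have h2 : ∀ x : ZMod N, φ x * nc N a ((((y :: X).length : ℕ) : ZMod N) - x) (y :: X) =
        (if y = a ∧ x = 1 then φ 1 else 0) +
          φ x * nc N a (((X.length : ℕ) : ZMod N) + 1 - x) X := by
      intro x
      rw [nc, List.length_cons, Nat.cast_add, Nat.cast_one, mul_add, add_comm]
      congr 1
      have h3 : (((X.length : ℕ) : ZMod N) = ((X.length : ℕ) : ZMod N) + 1 - x) ↔ x = 1 := by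
        constructor
        · intro h
          linear_combination h
        · intro h; rw [h]; ring
      by_cases h4 : y = a ∧ x = 1
      · rw [if_pos ⟨h4.1, h3.mpr h4.2⟩, if_pos h4, h4.2, mul_one]
      · rw [if_neg (fun h => h4 ⟨h.1, h3.mp h.2⟩), if_neg h4, mul_zero]
    rw [Finset.sum_congr rfl fun x _ => h2 x, Finset.sum_add_distrib]
    congr 1
    · by_cases h4 : y = a
      · simp [h4]
      · simp [h4]
    · rw [← Equiv.sum_comp (Equiv.addRight (1 : ZMod N))
        (fun x => φ x * nc N a (((X.length : ℕ) : ZMod N) + 1 - x) X)]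
      refine Finset.sum_congr rfl fun x _ => ?_
      show φ (x + 1) * _ = φ (x + 1) * nc N a (((X.length : ℕ) : ZMod N) + 1 - (x + 1)) X
      congr 2
      ring

theorem tp_PG {N : ℕ} [NeZero N] (a b : α) (φ : ZMod N → ℤ) (X : List α) :
    tp (fun k => φ (k : ZMod N)) a b X = ∑ x : ZMod N, φ x * PG N x a b X := by
  classical
  induction X with
  | nil =>
    rw [tp]
    exact (Finset.sum_eq_zero fun x _ => by rw [PG, mul_zero]).symm
  | cons y X ih =>
    rw [tp, ih, tn_nc]
    have h1 : ∀ x : ZMod N, φ x * PG N x a b (y :: X) = φ x * PG N x a b X +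
        if y = b then φ x * nc N a (((X.length : ℕ) : ZMod N) - x) X else 0 := by
      intro x
      rw [PG]
      by_cases h : y = b
      · rw [if_pos h, if_pos h, mul_add]
      · rw [if_neg h, if_neg h, add_zero, add_zero]
    rw [Finset.sum_congr rfl fun x _ => h1 x, Finset.sum_add_distrib]
    congr 1
    by_cases h : y = b
    · simp only [if_pos h]
    · simp only [if_neg h, Finset.sum_const_zero]

end dist

section ops

variable {N : ℕ} [NeZero N]

/-- the sum over a coset -/
def En (g : ℕ) (φ : ZMod N → ℤ) (x : ZMod N) : ℤ :=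
  ∑ j ∈ Finset.range (N / g), φ (x + ((g * j : ℕ) : ZMod N))

theorem En_per {g : ℕ} (hg : g ∣ N) (φ : ZMod N → ℤ) (x : ZMod N) :
    En g φ (x + (g : ZMod N)) = En g φ x := by
  unfold En
  have b1 := Finset.sum_range_succ (fun j => φ (x + ((g * j : ℕ) : ZMod N))) (N / g)
  have b2 := Finset.sum_range_succ' (fun j => φ (x + ((g * j : ℕ) : ZMod N))) (N / g)
  rw [b1] at b2
  have b3 : φ (x + ((g * (N / g) : ℕ) : ZMod N)) = φ (x + ((g * 0 : ℕ) : ZMod N)) := by
    rw [Nat.mul_div_cancel' hg, ZMod.natCast_self, Nat.mul_zero, Nat.cast_zero]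
  rw [b3] at b2
  have b4 := add_right_cancel b2
  rw [b4]
  refine Finset.sum_congr rfl fun c _ => ?_
  congr 1
  push_cast
  ring

theorem per_mul {g : ℕ} {u : ZMod N → ℤ} (hu : ∀ r, u (r + (g : ZMod N)) = u r) (j : ℕ) :
    ∀ r, u (r + ((g * j : ℕ) : ZMod N)) = u r := by
  induction j with
  | zero => intro r; rw [Nat.mul_zero, Nat.cast_zero, add_zero]
  | succ j ih =>
    intro r
    rw [Nat.mul_succ, Nat.cast_add, ← add_assoc, hu, ih]

/-- removal of the part with period `g` -/
def op (g : ℕ) (φ : ZMod N → ℤ) (x : ZMod N) : ℤ := ((N / g : ℕ) : ℤ) * φ x - En g φ x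

theorem En_En {g : ℕ} (hg : g ∣ N) (φ : ZMod N → ℤ) (x : ZMod N) :
    En g (En g φ) x = ((N / g : ℕ) : ℤ) * En g φ x := by
  have h1 : En g (En g φ) x = ∑ j ∈ Finset.range (N / g), En g φ x :=
    Finset.sum_congr rfl fun j _ => per_mul (En_per hg φ) j x
  rw [h1, Finset.sum_const, Finset.card_range, nsmul_eq_mul]

theorem En_op_self {g : ℕ} (hg : g ∣ N) (φ : ZMod N → ℤ) (x : ZMod N) : En g (op g φ) x = 0 := by
  have h1 : En g (op g φ) x = ((N / g : ℕ) : ℤ) * En g φ x - En g (En g φ) x := by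
    unfold En op
    rw [Finset.sum_sub_distrib, Finset.mul_sum]
    rfl
  rw [h1, En_En hg, sub_self]

theorem En_op {g g' : ℕ} (φ : ZMod N → ℤ) (h : ∀ x, En g φ x = 0) (x : ZMod N) :
    En g (op g' φ) x = 0 := by
  have h1 : En g (op g' φ) x = ((N / g' : ℕ) : ℤ) * En g φ x -
      ∑ j' ∈ Finset.range (N / g'), En g φ (x + ((g' * j' : ℕ) : ZMod N)) := by
    unfold En op
    rw [Finset.sum_sub_distrib, Finset.mul_sum]
    congr 1
    unfold En
    rw [Finset.sum_comm]
    refine Finset.sum_congr rfl fun j' _ => Finset.sum_congr rfl fun j _ => ?_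
    congr 1
    ring
  rw [h1, h x, mul_zero, zero_sub, neg_eq_zero]
  exact Finset.sum_eq_zero fun j' _ => h _

/-- removal of all parts of a list -/
def alls (l : List ℕ) (φ : ZMod N → ℤ) : ZMod N → ℤ := l.foldr op φ

theorem En_alls (l : List ℕ) (hl : ∀ g ∈ l, g ∣ N) (φ : ZMod N → ℤ) :
    ∀ g ∈ l, ∀ x, En g (alls l φ) x = 0 := by
  induction l with
  | nil => intro g hg; exact absurd hg List.not_mem_nil
  | cons g' l ih =>
    intro g hg x
    show En g (op g' (alls l φ)) x = 0
    rcases List.mem_cons.mp hg with rfl | h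
    · exact En_op_self (hl g List.mem_cons_self) _ x
    · exact En_op _ (ih (fun k hk => hl k (List.mem_cons_of_mem _ hk)) g h) x

theorem sum_zero_of {g : ℕ} (hg : g ∣ N) {X u : ZMod N → ℤ} (hX : ∀ x, En g X x = 0)
    (hu : ∀ r, u (r + (g : ZMod N)) = u r) (s : ZMod N) : ∑ x, X x * u (s - x) = 0 := by
  have hN : 0 < N := Nat.pos_of_ne_zero (NeZero.ne N)
  have hg0 : 0 < N / g := Nat.div_pos (Nat.le_of_dvd hN hg) (Nat.pos_of_dvd_of_pos hg hN)
  have h1 : ∀ j : ℕ, ∑ x, X x * u (s - x) =
      ∑ x, X (x + ((g * j : ℕ) : ZMod N)) * u (s - x) := by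
    intro j
    rw [← Equiv.sum_comp (Equiv.addRight ((g * j : ℕ) : ZMod N))]
    refine Finset.sum_congr rfl fun x _ => ?_
    show X (x + ((g * j : ℕ) : ZMod N)) * u (s - (x + ((g * j : ℕ) : ZMod N))) = _
    congr 1
    rw [← per_mul hu j (s - (x + ((g * j : ℕ) : ZMod N)))]
    congr 1
    ring
  have h2 : ((N / g : ℕ) : ℤ) * ∑ x, X x * u (s - x) = 0 := by
    have h3 : ((N / g : ℕ) : ℤ) * ∑ x, X x * u (s - x) =
        ∑ j ∈ Finset.range (N / g), ∑ x, X (x + ((g * j : ℕ) : ZMod N)) * u (s - x) := by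
      rw [← Finset.sum_congr rfl fun j _ => h1 j, Finset.sum_const, Finset.card_range,
        nsmul_eq_mul]
    rw [h3, Finset.sum_comm]
    refine Finset.sum_eq_zero fun x _ => ?_
    rw [← Finset.sum_mul]
    have h4 := hX x
    unfold En at h4
    rw [h4, zero_mul]
  rcases mul_eq_zero.mp h2 with h | h
  · exact absurd (Int.natCast_eq_zero.mp h) hg0.ne'
  · exact h

end ops

/-- **pair sums of functions of the distance with any period are known** -/
theorem tp_known {α : Type} [Finite α] (a b : α) (N : ℕ) : 0 < N → ∀ ψ : ℕ → ℤ,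
    (∀ k, ψ (k + N) = ψ k) → KnZ fun w : List α => tp ψ a b w.reverse := by
  induction N using Nat.strong_induction_on with
  | _ N ih =>
  intro hN ψ hψ
  haveI : NeZero N := ⟨hN.ne'⟩
  have key : ∀ φ : ZMod N → ℤ, KnZ fun w : List α => ∑ x, φ x * PG N x a b w.reverse := by
    intro φ
    -- the parts with proper periods
    have hE : ∀ g, g ∣ N → g < N → ∀ φ : ZMod N → ℤ,
        KnZ fun w : List α => ∑ x, En g φ x * PG N x a b w.reverse := by
      intro g hg hlt φ
      refine (ih g hlt (Nat.pos_of_dvd_of_pos hg hN) (fun k => En g φ (k : ZMod N)) fun k => by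
        show En g φ ((k + g : ℕ) : ZMod N) = En g φ (k : ZMod N)
        rw [Nat.cast_add, En_per hg]).congr fun w => ?_
      exact (tp_PG a b (En g φ) w.reverse).symm
    -- removal
    have hA : ∀ l : List ℕ, (∀ g ∈ l, g ∣ N ∧ g < N) → ∀ φ : ZMod N → ℤ,
        (KnZ fun w : List α => ∑ x, alls l φ x * PG N x a b w.reverse) →
        KnZ fun w : List α => ∑ x, φ x * PG N x a b w.reverse := by
      intro l
      induction l with
      | nil => intro _ φ h; exact h
      | cons g l ihl =>
        intro hl φ h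
        refine ihl (fun k hk => hl k (List.mem_cons_of_mem _ hk)) φ ?_
        obtain ⟨hg, hlt⟩ := hl g List.mem_cons_self
        have hc : 0 < N / g :=
          Nat.div_pos (Nat.le_of_dvd hN hg) (Nat.pos_of_dvd_of_pos hg hN)
        refine KnZ.div hc ((h.add (hE g hg hlt (alls l φ))).congr fun w => ?_)
        rw [← Finset.sum_add_distrib, Finset.mul_sum]
        refine Finset.sum_congr rfl fun x _ => ?_
        show _ = op g (alls l φ) x * PG N x a b w.reverse + _
        unfold op
        ring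
    refine hA N.properDivisors.toList (fun g hg => ?_) φ ?_
    · rw [Finset.mem_toList, Nat.mem_properDivisors] at hg
      exact hg
    · refine tw_known_n hN _ (fun g hg hlt u hu s => ?_) a b
      refine sum_zero_of hg (En_alls _ (fun k hk => ?_) φ g ?_) hu s
      · rw [Finset.mem_toList, Nat.mem_properDivisors] at hk
        exact hk.1
      · rw [Finset.mem_toList, Nat.mem_properDivisors]
        exact ⟨hg, hlt⟩
  refine (key fun x => ψ x.val).congr fun w => ?_
  rw [← tp_PG]
  congr 1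
  funext k
  show ψ k = ψ ((k : ZMod N).val)
  rw [ZMod.val_natCast]
  exact psi_mod hψ (Nat.mod_mod k N).symm

/-- **pair counts of letters by the difference of the positions modulo any number are known** -/
theorem pg {α : Type} [Finite α] {N : ℕ} (hN : 0 < N) (g : ZMod N) (a b : α) :
    KnZ fun w : List α => PG N g a b w.reverse := by
  classical
  haveI : NeZero N := ⟨hN.ne'⟩
  refine (tp_known a b N hN (fun k => (fun x : ZMod N => if x = g then (1 : ℤ) else 0) (k : ZMod N))
    fun k => ?_).congr fun w => ?_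
  · show (if ((k + N : ℕ) : ZMod N) = g then (1 : ℤ) else 0) = if (k : ZMod N) = g then 1 else 0
    rw [Nat.cast_add, ZMod.natCast_self, add_zero]
  · rw [tp_PG (N := N) a b (fun x : ZMod N => if x = g then (1 : ℤ) else 0)]
    simp

end Vale.Agent.P329.H766.QN

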